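import Vale.Agent.P133.IdealNorm
import Mathlib.Analysis.SpecialFunctions.Complex.CircleAddChar

/-!
P133: the bilinear gluing of almost orthogonal slots. Characters of `ZMod R` separate the pairs of
column indices, so one product of columns detects the square of their common middle in every
quotient.
-/

namespace Vale.Agent.P133

open scoped ComplexOrder

set_option linter.unusedSectionVars false

variable {C : Type*} [NonUnitalCStarAlgebra C] [PartialOrder C] [StarOrderedRing C]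

/-- The Cauchy-Schwarz inequality for sums of products. -/
theorem sq_norm_sum_mul_le {ι : Type*} [Fintype ι] (u v : ι → C) {A B : ℝ} (hA : 0 < A)
    (hu : ‖∑ i, u i * star (u i)‖ ≤ A) (hv : ‖∑ i, star (v i) * v i‖ ≤ B) :
    ‖∑ i, u i * v i‖ ^ 2 ≤ A * B := by
  set S := ∑ i, u i * v i with hS
  set w : ι → C := fun i => star (u i) * S with hw
  have hB : 0 ≤ B := (norm_nonneg _).trans hv
  have key : (2 : ℝ) • (star S * S) ≤
      (1 / A) • (star S * (∑ i, u i * star (u i)) * S) + A • ∑ i, star (v i) * v i := by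
    rw [← sub_nonneg]
    have e : (1 / A) • (star S * (∑ i, u i * star (u i)) * S) + A • (∑ i, star (v i) * v i) -
        (2 : ℝ) • (star S * S) =
        ∑ i, star ((1 / √A) • w i - √A • v i) * ((1 / √A) • w i - √A • v i) := by
      have e1 : ∀ i, star ((1 / √A) • w i - √A • v i) * ((1 / √A) • w i - √A • v i) =
          (1 / A) • (star S * (u i * star (u i)) * S) + A • (star (v i) * v i) -
            (star S * (u i * v i) + star (u i * v i) * S) := fun i => by
        have hA' : √A * √A = A := Real.mul_self_sqrt hA.le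
        have hA1 : √A ≠ 0 := (Real.sqrt_pos.2 hA).ne'
        simp only [hw, star_sub, star_smul, star_trivial, sub_mul, mul_sub, smul_mul_smul_comm,
          star_mul, star_star, mul_assoc]
        rw [show (1 / √A) * (1 / √A) = 1 / A by rw [div_mul_div_comm, one_mul, hA'],
          hA', one_div_mul_cancel hA1, mul_one_div_cancel hA1, one_smul, one_smul]
        abel
      simp only [e1, Finset.sum_sub_distrib, Finset.sum_add_distrib, ← Finset.smul_sum,
        ← Finset.mul_sum, ← Finset.sum_mul, ← star_sum, ← hS, two_smul]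
    rw [e]
    exact Finset.sum_nonneg fun i _ => star_mul_self_nonneg _
  have h1 := CStarAlgebra.norm_le_norm_of_nonneg_of_le
    (smul_nonneg zero_le_two (star_mul_self_nonneg S)) key
  rw [norm_smul, Real.norm_of_nonneg zero_le_two, CStarRing.norm_star_mul_self] at h1
  have h2 : ‖(1 / A) • (star S * (∑ i, u i * star (u i)) * S)‖ ≤ ‖S‖ * ‖S‖ := by
    rw [norm_smul, Real.norm_of_nonneg (by positivity)]
    refine (mul_le_mul_of_nonneg_left (norm_mul₃_le.trans (mul_le_mul_of_nonneg_right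
      (mul_le_mul_of_nonneg_left hu (norm_nonneg _)) (norm_nonneg _))) (by positivity)).trans
      (le_of_eq ?_)
    rw [norm_star]; field_simp
  have h3 : ‖A • ∑ i, star (v i) * v i‖ ≤ A * B := by
    rw [norm_smul, Real.norm_of_nonneg hA.le]
    exact mul_le_mul_of_nonneg_left hv hA.le
  nlinarith [norm_add_le ((1 / A) • (star S * (∑ i, u i * star (u i)) * S))
    (A • ∑ i, star (v i) * v i)]

variable {R : ℕ} [hR : Fact R.Prime]

theorem norm_stdAddChar (a : ZMod R) : ‖ZMod.stdAddChar a‖ = 1 := by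
  rw [ZMod.stdAddChar_apply]; exact Circle.norm_coe _

theorem star_stdAddChar (a : ZMod R) :
    star (ZMod.stdAddChar a) = ZMod.stdAddChar (-a) := by
  rw [ZMod.stdAddChar_apply, ZMod.stdAddChar_apply, AddChar.map_neg_eq_inv,
    Circle.coe_inv_eq_conj]
  rfl

/-- The discrete Fourier transform of a family of elements. -/
theorem norm_sum_dft_le {b : ZMod R} (hb : b ≠ 0) (W : ZMod R → C) {B : ℝ}
    (hW : ∀ l, ‖W l‖ ≤ B) :
    ‖∑ i, star (∑ l, ZMod.stdAddChar (b * i * l) • W l) *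
      (∑ l, ZMod.stdAddChar (b * i * l) • W l)‖ ≤ (R : ℝ) * (R * B ^ 2) := by
  have e : (∑ i, star (∑ l, ZMod.stdAddChar (b * i * l) • W l) *
      (∑ l, ZMod.stdAddChar (b * i * l) • W l)) = (R : ℂ) • ∑ l, star (W l) * W l := by
    calc _ = ∑ l, ∑ l', (∑ i, ZMod.stdAddChar (i * (b * (l' - l)))) • (star (W l) * W l') := by
          simp only [star_sum, Finset.sum_mul_sum, star_smul, smul_mul_smul_comm, Finset.sum_smul]
          rw [Finset.sum_comm]
          refine Finset.sum_congr rfl fun l _ => ?_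
          rw [Finset.sum_comm]
          refine Finset.sum_congr rfl fun l' _ => Finset.sum_congr rfl fun i _ => ?_
          congr 1
          rw [star_stdAddChar, ← AddChar.map_add_eq_mul]
          congr 1; ring
      _ = _ := by
          rw [Finset.smul_sum]
          refine Finset.sum_congr rfl fun l _ => ?_
          rw [Finset.sum_eq_single l (fun l' _ hl' => ?_) (by simp)]
          · rw [AddChar.sum_mulShift _ (ZMod.isPrimitive_stdAddChar R)]
            simp
          · rw [AddChar.sum_mulShift _ (ZMod.isPrimitive_stdAddChar R),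
              if_neg (mul_ne_zero hb (sub_ne_zero.2 hl'))]
            simp
  rw [e, norm_smul, Complex.norm_natCast]
  refine mul_le_mul_of_nonneg_left ((norm_sum_le _ _).trans
    ((Finset.sum_le_sum (g := fun _ => B ^ 2) fun l _ => ?_).trans ?_)) (Nat.cast_nonneg _)
  · rw [CStarRing.norm_star_mul_self, sq]
    exact mul_le_mul (hW l) (hW l) (norm_nonneg _) ((norm_nonneg _).trans (hW l))
  · simp

/-- The off-diagonal part is of smaller order than the square of the number of slots. -/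
theorem sq_norm_offdiag_le {b : ZMod R} (hb : b ≠ 0) (U W : ZMod R → C)
    (hU : ∀ i, ‖U i‖ ≤ 4) (hW : ∀ l, ‖W l‖ ≤ 4) :
    ‖∑ i, ∑ l, ZMod.stdAddChar (b * i * l) • (U i * W l)‖ ^ 2 ≤ 256 * (R : ℝ) ^ 3 := by
  have e : (∑ i, ∑ l, ZMod.stdAddChar (b * i * l) • (U i * W l)) =
      ∑ i, U i * ∑ l, ZMod.stdAddChar (b * i * l) • W l := by
    simp only [Finset.mul_sum, mul_smul_comm]
  have hA : ‖∑ i, U i * star (U i)‖ ≤ (R : ℝ) * 16 := by
    refine (norm_sum_le _ _).trans ((Finset.sum_le_sum (g := fun _ => (16 : ℝ)) fun i _ => ?_).trans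
      (by simp))
    rw [CStarRing.norm_self_mul_star]
    nlinarith [hU i, norm_nonneg (U i)]
  have hR0 : (0 : ℝ) < R := Nat.cast_pos.2 hR.out.pos
  rw [e]
  refine (sq_norm_sum_mul_le _ _ (by positivity) hA (norm_sum_dft_le hb W hW)).trans (le_of_eq ?_)
  ring

theorem norm_sum_le_card {ι E : Type*} [Fintype ι] [NormedAddCommGroup E] (f : ι → E) {M : ℝ}
    (h : ∀ i, ‖f i‖ ≤ M) : ‖∑ i, f i‖ ≤ (Fintype.card ι : ℝ) * M :=
  (norm_sum_le _ _).trans ((Finset.sum_le_sum fun i _ => h i).trans (by simp))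

theorem qn_sum_le_card {ι : Type*} [Fintype ι] {J : Submodule ℂ C} (f : ι → C) {M : ℝ}
    (h : ∀ i, qn J (f i) ≤ M) : qn J (∑ i, f i) ≤ (Fintype.card ι : ℝ) * M := by
  classical
  have key : ∀ s : Finset ι, qn J (∑ i ∈ s, f i) ≤ (s.card : ℝ) * M := by
    intro s
    induction s using Finset.induction_on with
    | empty => simpa using qn_le_norm (J := J) (0 : C)
    | insert a s ha ih =>
      rw [Finset.sum_insert ha, Finset.card_insert_of_notMem ha]
      push_cast
      linarith [qn_add_le (J := J) (f a) (∑ i ∈ s, f i), h a]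
  simpa using key Finset.univ

theorem qn_csmul_le {J : Submodule ℂ C} (c : ℂ) (x : C) : qn J (c • x) ≤ ‖c‖ * qn J x := by
  refine le_of_forall_pos_le_add fun δ hδ => ?_
  obtain ⟨j, hj, hjx⟩ := exists_near (J := J) x (r := qn J x + δ / (‖c‖ + 1))
    (by linarith [show 0 < δ / (‖c‖ + 1) by positivity])
  refine (qn_le_norm_sub (J.smul_mem c hj)).trans ?_
  rw [← smul_sub, norm_smul]
  have h1 : ‖c‖ * (δ / (‖c‖ + 1)) ≤ δ := by
    rw [mul_div_assoc', div_le_iff₀ (by positivity)]; nlinarith [norm_nonneg c]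
  nlinarith [mul_le_mul_of_nonneg_left hjx.le (norm_nonneg c)]

set_option maxHeartbeats 1000000 in
/-- One bilinear element over almost orthogonal slots: it has small square and is as large as
their common middle in every quotient. -/
theorem exists_bilinear {n : ℕ} (hRn : n * n < R) (hRL : (128 * (n : ℝ) ^ 4) ^ 2 ≤ R)
    (Y Z : ZMod R → Fin n → C) {m : C} (hm : ‖m‖ ≤ 1) {ζ : ℝ} (hζ : 0 ≤ ζ)
    (hζ1 : 4 * ((R : ℝ) ^ 2 * n ^ 2) ^ 2 * ζ ≤ 1 / 8) (hζ2 : ζ ≤ 1 / 64)
    (hY : ∀ i j, ‖Y i j‖ ≤ 2) (hZ : ∀ l k, ‖Z l k‖ ≤ 2)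
    (hYm : ∀ i, ‖(∑ j, star (Y i j) * Y i j) - m‖ ≤ ζ)
    (hZm : ∀ l, ‖(∑ k, star (Z l k) * Z l k) - m‖ ≤ ζ)
    (hYY : ∀ i i' j j', i ≠ i' → ‖star (Y i j) * Y i' j'‖ ≤ ζ)
    (hZZ : ∀ l l' k k', l ≠ l' → ‖star (Z l k) * Z l' k'‖ ≤ ζ)
    (hZY : ∀ l k i j, ‖star (Z l k) * Y i j‖ ≤ ζ) :
    ∃ T : C, T ∈ Submodule.span ℂ (Set.range fun q : (ZMod R × Fin n) × (ZMod R × Fin n) =>
        Y q.1.1 q.1.2 * star (Z q.2.1 q.2.2)) ∧
      ‖T‖ ≤ 4 * ((R : ℝ) ^ 2 * n ^ 2) ∧ ‖T * T‖ ≤ 4 * ((R : ℝ) ^ 2 * n ^ 2) ^ 2 * ζ ∧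
      ∀ J : Submodule ℂ C, IsStarIdeal J →
        (R : ℝ) ^ 2 * qn J (m * m) ≤ 4 * ((R : ℝ) ^ 2 * n ^ 2) * qn J T + 3 * (R : ℝ) ^ 2 / 8 := by
  classical
  set χ : AddChar (ZMod R) ℂ := ZMod.stdAddChar with hχ
  set α : Fin n × Fin n → ZMod R := fun p => ((finProdFinEquiv p).val : ZMod R) with hα
  have hαi : Function.Injective α := fun p q h => by
    have h1 := congrArg ZMod.val h
    simp only [hα] at h1
    rw [ZMod.val_cast_of_lt ((finProdFinEquiv p).isLt.trans hRn),
      ZMod.val_cast_of_lt ((finProdFinEquiv q).isLt.trans hRn)] at h1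
    exact finProdFinEquiv.injective (Fin.ext h1)
  set T := ∑ p, ∑ i, ∑ l, χ (α p * i * l) • (Y i p.1 * star (Z l p.2)) with hT
  have hN : (Fintype.card (Fin n × Fin n) : ℝ) = (n : ℝ) ^ 2 := by simp; ring
  have hcR : (Fintype.card (ZMod R) : ℝ) = R := by simp
  have hR0 : (0 : ℝ) < R := Nat.cast_pos.2 hR.out.pos
  have h22 : ∀ i j l k, ‖Y i j * star (Z l k)‖ ≤ 4 := fun i j l k => by
    refine (norm_mul_le _ _).trans ?_
    rw [norm_star]
    nlinarith [hY i j, hZ l k, norm_nonneg (Y i j), norm_nonneg (Z l k)]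
  refine ⟨T, ?_, ?_, ?_, fun J hJ => ?_⟩
  · refine sum_mem fun p _ => sum_mem fun i _ => sum_mem fun l _ => Submodule.smul_mem _ _ ?_
    exact Submodule.subset_span ⟨((i, p.1), (l, p.2)), rfl⟩
  · refine (norm_sum_le_card _ fun p => norm_sum_le_card _ fun i => norm_sum_le_card _
      (M := 4) fun l => ?_).trans (le_of_eq ?_)
    · rw [norm_smul, norm_stdAddChar, one_mul]; exact h22 _ _ _ _
    · rw [hN, hcR]; ring
  · have e : T * T = ∑ p, ∑ i, ∑ l, ∑ p', ∑ i', ∑ l', (χ (α p * i * l) * χ (α p' * i' * l')) •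
        (Y i p.1 * (star (Z l p.2) * Y i' p'.1) * star (Z l' p'.2)) := by
      simp only [hT, Finset.sum_mul]
      simp only [Finset.mul_sum, smul_mul_smul_comm, mul_assoc]
    rw [e]
    refine (norm_sum_le_card _ fun p => norm_sum_le_card _ fun i => norm_sum_le_card _
      fun l => norm_sum_le_card _ fun p' => norm_sum_le_card _ fun i' => norm_sum_le_card _
      (M := 4 * ζ) fun l' => ?_).trans (le_of_eq ?_)
    · rw [norm_smul, norm_mul, norm_stdAddChar, norm_stdAddChar, one_mul, one_mul]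
      refine norm_mul₃_le.trans ?_
      rw [norm_star]
      calc ‖Y i p.1‖ * ‖star (Z l p.2) * Y i' p'.1‖ * ‖Z l' p'.2‖ ≤ 2 * ζ * 2 :=
            mul_le_mul (mul_le_mul (hY _ _) (hZY _ _ _ _) (norm_nonneg _) zero_le_two) (hZ _ _)
              (norm_nonneg _) (by positivity)
        _ = 4 * ζ := by ring
    · rw [hN, hcR]; ring
  set U : Fin n × Fin n → Fin n × Fin n → ZMod R → C :=
    fun p p' i => star (Y i p.1) * Y i p'.1 with hU
  set W : Fin n × Fin n → Fin n × Fin n → ZMod R → C :=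
    fun p p' l => star (Z l p'.2) * Z l p.2 with hW
  set P := ∑ p, ∑ i, ∑ l, χ (-(α p * i * l)) • (star (Y i p.1) * T * Z l p.2) with hP
  set Q := ∑ p, ∑ p', ∑ i, ∑ l, χ ((α p' - α p) * i * l) • (U p p' i * W p p' l) with hQ
  have hqP : qn J P ≤ 4 * ((R : ℝ) ^ 2 * n ^ 2) * qn J T := by
    refine (qn_sum_le_card _ fun p => qn_sum_le_card _ fun i => qn_sum_le_card _
      (M := 4 * qn J T) fun l => ?_).trans (le_of_eq (by rw [hN, hcR]; ring))
    refine (qn_csmul_le _ _).trans ?_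
    rw [norm_stdAddChar, one_mul]
    refine (qn_mul_le hJ _ _).trans ?_
    have h1 := (qn_mul_le hJ (star (Y i p.1)) T)
    have h2 : qn J (star (Y i p.1)) ≤ 2 := (qn_le_norm _).trans ((norm_star _).le.trans (hY _ _))
    have h3 : qn J (Z l p.2) ≤ 2 := (qn_le_norm _).trans (hZ _ _)
    calc qn J (star (Y i p.1) * T) * qn J (Z l p.2) ≤ (2 * qn J T) * 2 :=
          mul_le_mul (h1.trans (mul_le_mul_of_nonneg_right h2 (qn_nonneg _))) h3 (qn_nonneg _)
            (mul_nonneg zero_le_two (qn_nonneg _))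
      _ = 4 * qn J T := by ring
  have hPQ : ‖P - Q‖ ≤ (R : ℝ) ^ 2 / 8 := by
    have e : P = ∑ p, ∑ p', ∑ i, ∑ l, ∑ i', ∑ l', (χ (-(α p * i * l)) * χ (α p' * i' * l')) •
        ((star (Y i p.1) * Y i' p'.1) * (star (Z l' p'.2) * Z l p.2)) := by
      simp only [hP, hT, Finset.mul_sum, Finset.sum_mul, Finset.smul_sum]
      refine Finset.sum_congr rfl fun p _ => ?_
      rw [Finset.sum_comm]
      refine (Finset.sum_congr rfl fun l _ => Finset.sum_comm).trans ?_
      rw [Finset.sum_comm]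
      refine Finset.sum_congr rfl fun p' _ => ?_
      rw [Finset.sum_comm]
      refine Finset.sum_congr rfl fun i _ => Finset.sum_congr rfl fun l _ =>
        Finset.sum_congr rfl fun i' _ => Finset.sum_congr rfl fun l' _ => ?_
      simp only [mul_smul_comm, smul_mul_assoc, smul_smul, mul_assoc]
    have e2 : Q = ∑ p, ∑ p', ∑ i, ∑ l, ∑ i', ∑ l', if i' = i ∧ l' = l then
        (χ (-(α p * i * l)) * χ (α p' * i' * l')) •
        ((star (Y i p.1) * Y i' p'.1) * (star (Z l' p'.2) * Z l p.2)) else 0 := by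
      simp only [hQ, ite_and, Finset.sum_ite_eq', Finset.mem_univ, if_true, Finset.sum_ite_irrel,
        Finset.sum_const_zero]
      refine Finset.sum_congr rfl fun p _ => Finset.sum_congr rfl fun p' _ =>
        Finset.sum_congr rfl fun i _ => Finset.sum_congr rfl fun l _ => ?_
      rw [← AddChar.map_add_eq_mul, show -(α p * i * l) + α p' * i * l = (α p' - α p) * i * l by ring]
    rw [e, e2]
    simp only [← Finset.sum_sub_distrib]
    refine (norm_sum_le_card _ fun p => norm_sum_le_card _ fun p' => norm_sum_le_card _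
      fun i => norm_sum_le_card _ fun l => norm_sum_le_card _ fun i' => norm_sum_le_card _
      (M := 4 * ζ) fun l' => ?_).trans ?_
    · split_ifs with h
      · rw [sub_self, norm_zero]; positivity
      · rw [sub_zero, norm_smul, norm_mul, norm_stdAddChar, norm_stdAddChar, one_mul, one_mul]
        refine (norm_mul_le _ _).trans ?_
        have b1 : ‖star (Y i p.1) * Y i' p'.1‖ ≤ 4 := (norm_mul_le _ _).trans (by
          rw [norm_star]; nlinarith [hY i p.1, hY i' p'.1, norm_nonneg (Y i' p'.1)])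
        have b2 : ‖star (Z l' p'.2) * Z l p.2‖ ≤ 4 := (norm_mul_le _ _).trans (by
          rw [norm_star]; nlinarith [hZ l p.2, hZ l' p'.2, norm_nonneg (Z l p.2)])
        rcases not_and_or.1 h with h | h
        · nlinarith [hYY i i' p.1 p'.1 (Ne.symm h), norm_nonneg (star (Z l' p'.2) * Z l p.2),
            norm_nonneg (star (Y i p.1) * Y i' p'.1)]
        · nlinarith [hZZ l' l p'.2 p.2 h, norm_nonneg (star (Z l' p'.2) * Z l p.2),
            norm_nonneg (star (Y i p.1) * Y i' p'.1)]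
    · rw [hN, hcR]
      have hR1 : (1 : ℝ) ≤ (R : ℝ) ^ 2 := one_le_pow₀ (Nat.one_le_cast.2 hR.out.one_le)
      calc (n : ℝ) ^ 2 * ((n : ℝ) ^ 2 * (R * (R * (R * (R * (4 * ζ))))))
          = 4 * ((R : ℝ) ^ 2 * n ^ 2) ^ 2 * ζ := by ring
        _ ≤ _ := by linarith
  have hd : ‖(∑ i, ∑ j, star (Y i j) * Y i j) * (∑ l, ∑ k, star (Z l k) * Z l k) -
      ((R : ℝ) ^ 2) • (m * m)‖ ≤ 3 * (R : ℝ) ^ 2 * ζ := by
    set A := ∑ i, ∑ j, star (Y i j) * Y i j
    set B := ∑ l, ∑ k, star (Z l k) * Z l k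
    have hA : ‖A - (R : ℝ) • m‖ ≤ R * ζ := by
      rw [show (R : ℝ) • m = ∑ _i : ZMod R, m by simp [Nat.cast_smul_eq_nsmul]]
      rw [← Finset.sum_sub_distrib]
      exact (norm_sum_le_card _ hYm).trans (le_of_eq (by rw [hcR]))
    have hB : ‖B - (R : ℝ) • m‖ ≤ R * ζ := by
      rw [show (R : ℝ) • m = ∑ _i : ZMod R, m by simp [Nat.cast_smul_eq_nsmul]]
      rw [← Finset.sum_sub_distrib]
      exact (norm_sum_le_card _ hZm).trans (le_of_eq (by rw [hcR]))
    have hRm : ‖(R : ℝ) • m‖ ≤ R := by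
      rw [norm_smul, Real.norm_of_nonneg hR0.le]; exact mul_le_of_le_one_right hR0.le hm
    rw [sq, ← smul_mul_smul_comm, show A * B - ((R : ℝ) • m) * ((R : ℝ) • m) =
      (A - (R : ℝ) • m) * (B - (R : ℝ) • m) + (A - (R : ℝ) • m) * ((R : ℝ) • m) +
        ((R : ℝ) • m) * (B - (R : ℝ) • m) by simp only [sub_mul, mul_sub]; abel]
    refine norm_add₃_le.trans ?_
    have := norm_mul_le (A - (R : ℝ) • m) (B - (R : ℝ) • m)
    have := norm_mul_le (A - (R : ℝ) • m) ((R : ℝ) • m)
    have := norm_mul_le ((R : ℝ) • m) (B - (R : ℝ) • m)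
    nlinarith [mul_le_mul hA hB (norm_nonneg _) (by positivity),
      mul_le_mul hA hRm (norm_nonneg _) (by positivity),
      mul_le_mul hRm hB (norm_nonneg _) hR0.le, mul_nonneg (mul_nonneg hR0.le hR0.le) hζ]
  have hoff : ‖Q - (∑ i, ∑ j, star (Y i j) * Y i j) * (∑ l, ∑ k, star (Z l k) * Z l k)‖ ≤
      (R : ℝ) ^ 2 / 8 := by
    have e : (∑ i, ∑ j, star (Y i j) * Y i j) * (∑ l, ∑ k, star (Z l k) * Z l k) =
        ∑ p, ∑ p', if p' = p then ∑ i, ∑ l, χ ((α p' - α p) * i * l) • (U p p' i * W p p' l)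
          else 0 := by
      simp only [Finset.sum_ite_eq', Finset.mem_univ, if_true, sub_self, zero_mul,
        AddChar.map_zero_eq_one, one_smul, hU, hW, Fintype.sum_prod_type, ← Finset.mul_sum,
        ← Finset.sum_mul]
      rw [Finset.sum_comm (f := fun i j => star (Y i j) * Y i j),
        Finset.sum_comm (f := fun l k => star (Z l k) * Z l k)]
    rw [hQ, e]
    simp only [← Finset.sum_sub_distrib]
    refine (norm_sum_le_card _ fun p => norm_sum_le_card _
      (M := 16 * (R : ℝ) ^ 2 / (128 * (n : ℝ) ^ 4)) fun p' => ?_).trans ?_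
    · split_ifs with h
      · rw [sub_self, norm_zero]; positivity
      · rw [sub_zero]
        have hn0 : (0 : ℝ) < n := Nat.cast_pos.2 (Fin.pos p.1)
        have hsq := sq_norm_offdiag_le (sub_ne_zero.2 (hαi.ne h)) (U p p') (W p p')
          (fun i => (norm_mul_le _ _).trans (by
            rw [norm_star]; nlinarith [hY i p.1, hY i p'.1, norm_nonneg (Y i p'.1)]))
          (fun l => (norm_mul_le _ _).trans (by
            rw [norm_star]; nlinarith [hZ l p'.2, hZ l p.2, norm_nonneg (Z l p.2)]))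
        refine le_of_pow_le_pow_left₀ two_ne_zero (by positivity) (hsq.trans ?_)
        rw [div_pow, le_div_iff₀ (by positivity)]
        nlinarith [mul_le_mul_of_nonneg_left hRL (show 0 ≤ 256 * (R : ℝ) ^ 3 by positivity)]
    · rw [hN]
      rcases eq_or_ne (n : ℝ) 0 with h0 | h0
      · simp [h0]; positivity
      · exact le_of_eq (by field_simp; ring)
  have h1 : qn J (((R : ℝ) ^ 2) • (m * m)) ≤ qn J P + 3 * (R : ℝ) ^ 2 / 8 := by
    refine (qn_le_add_norm (J := J) _ P).trans (add_le_add le_rfl ?_)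
    rw [norm_sub_rev]
    refine (norm_sub_le_norm_sub_add_norm_sub _ Q _).trans ?_
    have := norm_sub_le_norm_sub_add_norm_sub Q
      ((∑ i, ∑ j, star (Y i j) * Y i j) * (∑ l, ∑ k, star (Z l k) * Z l k)) (((R : ℝ) ^ 2) • (m * m))
    nlinarith [sq_nonneg (R : ℝ)]
  have h2 := qn_smul_le (J := J) (r := ((R : ℝ) ^ 2)⁻¹) (((R : ℝ) ^ 2) • (m * m))
  rw [smul_smul, inv_mul_cancel₀ (by positivity : (R : ℝ) ^ 2 ≠ 0), one_smul,
    abs_of_pos (by positivity), ← div_eq_inv_mul, le_div_iff₀ (by positivity)] at h2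
  linarith

end Vale.Agent.P133
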