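import Vale.Agent.P133.IdealNorm

/-!
P133: the two properties in the reduction of question (b). `OrthPairs` does not ask the two
elements to be equivalent.
-/

namespace Vale.Agent.P133

variable {C : Type*} [NonUnitalCStarAlgebra C]

/-- Two almost orthogonal full elements in every hereditary subalgebra, with one threshold. -/
def OrthPairs (C : Type*) [NonUnitalCStarAlgebra C] [PartialOrder C] : Prop :=
  ∃ γ : ℝ, 0 < γ ∧ ∀ {x : C}, 0 ≤ x → ∀ {ε : ℝ}, 0 < ε → ∀ η : ℝ, 0 < η → ∃ a c : C,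
    0 ≤ a ∧ 0 ≤ c ∧ ‖a‖ ≤ 1 ∧ ‖c‖ ≤ 1 ∧ InHer x a ∧ InHer x c ∧ ‖a * c‖ ≤ η ∧
    ∀ J : Submodule ℂ C, IsStarIdeal J →
      (qn J a ≤ γ → cut ε (x * x) ∈ J) ∧ (qn J c ≤ γ → cut ε (x * x) ∈ J)

/-- No quotient has a nonzero projection. -/
def NoQuotientProjection (C : Type*) [NonUnitalCStarAlgebra C] : Prop :=
  ∀ J : Submodule ℂ C, IsStarIdeal J → ∀ p : C, p * p - p ∈ J → star p - p ∈ J → p ∈ J

end Vale.Agent.P133
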