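import Vale.Agent.P133.W.Family
import Vale.Agent.P133.Orth.Bilinear
import Vale.Agent.P133.Projection

/-!
P133: a weakly purely infinite algebra is purely infinite as soon as every hereditary subalgebra
has two almost orthogonal full elements; no dimension condition is needed.
-/

namespace Vale.Agent.P133

open scoped ComplexOrder

set_option linter.unusedSectionVars false

variable {C : Type*} [NonUnitalCStarAlgebra C] [PartialOrder C] [StarOrderedRing C]

/-- The closed right ideal generated by `x`, from products with `x` on the left. -/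
noncomputable def rightCl (x : C) : Submodule ℂ C :=
  (LinearMap.range (LinearMap.mulLeft ℂ x)).topologicalClosure

theorem mul_mem_rightCl_self (x w : C) : x * w ∈ rightCl x :=
  Submodule.le_topologicalClosure _ ⟨w, rfl⟩

theorem exists_of_mem_rightCl {x v : C} (h : v ∈ rightCl x) {δ : ℝ} (hδ : 0 < δ) :
    ∃ w, ‖x * w - v‖ < δ := by
  obtain ⟨_, ⟨w, rfl⟩, hw⟩ := Metric.mem_closure_iff.1 h δ hδ
  exact ⟨w, by rwa [dist_eq_norm, norm_sub_rev] at hw⟩

theorem mul_mem_rightCl {x v : C} (h : v ∈ rightCl x) (y : C) : v * y ∈ rightCl x := by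
  refine map_mem_closure (f := fun u => u * y) (continuous_mul_const y) h ?_
  rintro _ ⟨w, rfl⟩
  exact ⟨w * y, (mul_assoc x w y).symm⟩

theorem rightCl_trans {x g v : C} (hg : g ∈ rightCl x) (hv : v ∈ rightCl g) : v ∈ rightCl x := by
  refine closure_minimal ?_ (Submodule.isClosed_topologicalClosure _) hv
  rintro _ ⟨w, rfl⟩
  exact mul_mem_rightCl hg w

theorem rightCl_fix {f g v : C} (hfg : f * g = g) (hv : v ∈ rightCl g) : f * v = v := by
  refine closure_minimal (s := ((LinearMap.range (LinearMap.mulLeft ℂ g) : Submodule ℂ C) : Set C))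
    (t := {u | f * u = u}) ?_ (isClosed_eq (continuous_const_mul f) continuous_id) hv
  rintro _ ⟨w, rfl⟩
  show f * (g * w) = g * w
  rw [← mul_assoc, hfg]

theorem InHer.mem_rightCl {x a : C} (h : InHer x a) : a ∈ rightCl x := by
  refine Metric.mem_closure_iff.2 fun δ hδ => ?_
  obtain ⟨c, hc⟩ := h δ hδ
  exact ⟨x * c * x, ⟨c * x, (mul_assoc x c x).symm⟩, by rwa [dist_eq_norm]⟩

/-- The cut-down lies in the ideal as soon as the ramp is small modulo it. -/
theorem cut_mem_of_ramp {J : Submodule ℂ C} (hJ : IsStarIdeal J) {u : C} (hu : 0 ≤ u) {a b : ℝ}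
    (ha : 0 ≤ a) (hab : a < b) (h : qn J (cfcₙ (ramp a b) u) < 3 / 4) : cut b u ∈ J := by
  refine cfc_mem_of_qn_lt hJ (IsSelfAdjoint.of_nonneg hu) (continuous_ramp _ _) (ramp_zero hab ha)
    (show (0 : ℝ) < 3 / 4 by norm_num) h (by fun_prop) (max_eq_right (by linarith)) fun t _ ht => ?_
  rw [ramp_of_ge hab (le_of_not_ge fun h1 => ht (max_eq_right (sub_nonpos.2 h1)))]
  norm_num

theorem ramp_mem_of_qn_lt {J : Submodule ℂ C} (hJ : IsStarIdeal J) {u : C} (hu : 0 ≤ u) {a b : ℝ}
    (ha : 0 < a) (hab : a < b) (h : qn J u < a) : cfcₙ (ramp a b) u ∈ J :=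
  cfc_mem_of_qn_lt hJ (IsSelfAdjoint.of_nonneg hu) continuous_id rfl ha (by rwa [cfcₙ_id ℝ u])
    (continuous_ramp _ _) (ramp_zero hab ha.le) fun _ _ ht => le_of_ramp_ne hab ht

theorem ramp_mul_ramp (u : C) {a b c : ℝ} (ha : 0 ≤ a) (hab : a < b) (hbc : b < c) :
    cfcₙ (ramp a b) u * cfcₙ (ramp b c) u = cfcₙ (ramp b c) u := by
  rw [← cfcₙ_mul _ _ _ (continuous_ramp _ _).continuousOn (ramp_zero hab ha)
    (continuous_ramp _ _).continuousOn (ramp_zero hbc (ha.trans hab.le))]
  refine cfcₙ_congr fun t _ => ?_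
  rcases le_total t b with h | h
  · rw [ramp_of_le hbc h, mul_zero]
  · rw [ramp_of_ge hab h, one_mul]

theorem cfcₙ_ramp_nonneg (u : C) (a b : ℝ) : 0 ≤ cfcₙ (ramp a b) u :=
  cfcₙ_nonneg fun t _ => (ramp_mem a b t).1

theorem norm_cfcₙ_ramp_le' (u : C) (a b : ℝ) : ‖cfcₙ (ramp a b) u‖ ≤ 1 :=
  norm_cfcₙ_le fun t _ => by
    obtain ⟨h0, h1⟩ := ramp_mem a b t
    rw [Real.norm_of_nonneg h0]; exact h1

theorem norm_le_one_of_sq {t : C} (h : ‖star t * t‖ ≤ 1) : ‖t‖ ≤ 1 := by
  rw [CStarRing.norm_star_mul_self] at h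
  nlinarith [norm_nonneg t]

set_option maxHeartbeats 1000000 in
/-- A contraction with small square which is full, in both corners of `x`. -/
theorem exists_full_sqzero {n : ℕ} (hn : 1 ≤ n) (hC : WeaklyPurelyInfiniteWith C n)
    (hP : OrthPairs C) :
    ∃ γ : ℝ, 0 < γ ∧ ∀ {x : C}, 0 ≤ x → ∀ {ε : ℝ}, 0 < ε → ∀ η : ℝ, 0 < η → ∃ t : C,
      ‖t‖ ≤ 1 ∧ t ∈ rightCl x ∧ star t ∈ rightCl x ∧ ‖t * t‖ ≤ η ∧
      ∀ J : Submodule ℂ C, IsStarIdeal J → qn J t ≤ γ → cut ε (x * x) ∈ J := by
  obtain ⟨R, hRle, hRp⟩ := Nat.exists_infinite_primes (max (n * n + 1) ((128 * n ^ 4) ^ 2))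
  have : Fact R.Prime := ⟨hRp⟩
  have hRn : n * n < R := by have := le_of_max_le_left hRle; omega
  have hRL : (128 * (n : ℝ) ^ 4) ^ 2 ≤ R := by exact_mod_cast le_of_max_le_right hRle
  obtain ⟨γa, hγa, hfam⟩ := hP.exists_family (Fintype.card (ZMod R ⊕ ZMod R))
  set e := Fintype.equivFin (ZMod R ⊕ ZMod R)
  have hn0 : (1 : ℝ) ≤ n := by exact_mod_cast hn
  have hR0 : (1 : ℝ) ≤ R := by exact_mod_cast hRp.one_le
  set N : ℝ := (R : ℝ) ^ 2 * n ^ 2 with hN
  have hN0 : 0 < N := by positivity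
  set K := 4 * N with hK
  have hK0 : 0 < K := by positivity
  refine ⟨(R : ℝ) ^ 2 / (8 * K ^ 2), by positivity, fun {x} hx {ε} hε η hη => ?_⟩
  set ζ := min (min (1 / 64) η) (1 / (32 * N ^ 2)) with hζ
  have hζ0 : 0 < ζ := lt_min (lt_min (by norm_num) hη) (by positivity)
  have hζ64 : ζ ≤ 1 / 64 := (min_le_left _ _).trans (min_le_left _ _)
  have hζη : ζ ≤ η := (min_le_left _ _).trans (min_le_right _ _)
  have hζN : 4 * N ^ 2 * ζ ≤ 1 / 8 := by
    have h := min_le_right (min (1 / 64) η) (1 / (32 * N ^ 2))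
    rw [← hζ, le_div_iff₀ (by positivity)] at h
    linarith
  obtain ⟨a, ha0, ha1, hax, hao, hafull⟩ :=
    hfam hx (show 0 < ε / 4 by linarith) (ζ * γa ^ 2 / 256) (by positivity)
  have hxx : 0 ≤ x * x := (IsSelfAdjoint.of_nonneg hx).mul_self_nonneg
  set m := cfcₙ (ramp (ε / 2) ε) (x * x) with hmdef
  have hm0 : 0 ≤ m := cfcₙ_ramp_nonneg _ _ _
  have hcol : ∀ q, ∃ y : Fin n → C, ‖(∑ j, star (y j) * y j) - m‖ ≤ ζ ∧
      ∀ j, ‖y j‖ ≤ 2 ∧ cfcₙ (ramp (γa / 8) (γa / 4)) (a (e q)) * y j = y j := fun q => by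
    set g := cfcₙ (ramp (γa / 4) (γa / 2)) (a (e q)) with hg
    have hg0 : 0 ≤ g := cfcₙ_ramp_nonneg _ _ _
    have hJ : IsStarIdeal (idealGen (cut (1 / 2) g)) :=
      isStarIdeal_idealGen (IsSelfAdjoint.of_nonneg (cut_nonneg _ _)).star_eq
    have hmem : m ∈ idealGen (cut (1 / 2) g) := by
      have h1 := cut_mem_of_ramp hJ (ha0 (e q)) (show 0 ≤ γa / 4 by linarith) (by linarith)
        ((qn_cut_self hg0 (by norm_num)).trans_lt (by norm_num))
      have h2 : qn (idealGen (cut (1 / 2) g)) (a (e q)) ≤ γa := by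
        linarith [(qn_le_norm_sub h1).trans (norm_sub_cut_le (show 0 ≤ γa / 2 by linarith) (ha0 _))]
      have h3 := (qn_le_norm_sub (hafull _ hJ (e q) h2)).trans
        (norm_sub_cut_le (show 0 ≤ ε / 4 by linarith) hxx)
      exact ramp_mem_of_qn_lt hJ hxx (by linarith) (by linarith) (by linarith)
    obtain ⟨r, hr, hrn⟩ := hC.exists_bounded hn hg0 hm0 (by norm_num) hmem hζ0
    obtain ⟨H, hHs, hHH⟩ := exists_sqrt hg0
    have hH1 : ‖H‖ ≤ 1 := norm_le_one_of_sq (by
      rw [hHs, hHH]; exact norm_cfcₙ_ramp_le' _ _ _)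
    have hfH : cfcₙ (ramp (γa / 8) (γa / 4)) (a (e q)) * H = H := by
      set f := cfcₙ (ramp (γa / 8) (γa / 4)) (a (e q))
      have hfg : f * g = g := ramp_mul_ramp _ (by linarith) (by linarith) (by linarith)
      have : (f * H - H) * star (f * H - H) = 0 := by
        have e1 : (f * H - H) * star (f * H - H) =
            (f * g - g) * star f - (f * g - g) := by
          rw [← hHH]; simp only [star_sub, star_mul, hHs, sub_mul, mul_sub, mul_assoc]
        rw [e1, hfg, sub_self, zero_mul, sub_zero]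
      exact sub_eq_zero.1 (CStarRing.mul_star_self_eq_zero_iff _ |>.1 this)
    refine ⟨fun j => H * r j, ?_, fun j => ⟨?_, by rw [← mul_assoc, hfH]⟩⟩
    · have : ∀ j, star (H * r j) * (H * r j) = star (r j) * g * r j := fun j => by
        rw [← hHH, star_mul, hHs]; simp only [mul_assoc]
      simp only [this]
      exact hr.le
    · refine (norm_mul_le _ _).trans ((mul_le_of_le_one_left (norm_nonneg _) hH1).trans ?_)
      have h1 := hrn j
      have h2 : ‖m‖ ≤ 1 := norm_cfcₙ_ramp_le' _ _ _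
      rw [le_div_iff₀ (by norm_num)] at h1
      nlinarith [norm_nonneg (r j)]
  choose y hym hy using hcol
  have hh : ∀ q, ∃ h : C, cfcₙ (ramp (γa / 8) (γa / 4)) (a (e q)) = a (e q) * h ∧ ‖h‖ ≤ 8 / γa :=
    fun q => by
      obtain ⟨h, h1, h2⟩ := exists_ramp_factor (ha0 (e q)) (show 0 < γa / 8 by linarith)
        (show γa / 8 < γa / 4 by linarith)
      exact ⟨h, h1, h2.trans (le_of_eq (one_div_div _ _))⟩
  choose hf hfe hfn using hh
  have horth : ∀ q q' j j', q ≠ q' → ‖star (y q j) * y q' j'‖ ≤ ζ := fun q q' j j' hne => by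
    have e1 : star (y q j) * y q' j' =
        star (y q j) * (star (hf q) * (a (e q) * a (e q')) * hf q') * y q' j' := by
      have e2 : star (y q j) = star (y q j) * (star (hf q) * a (e q)) := by
        conv_lhs => rw [← (hy q j).2, hfe, star_mul, star_mul,
          (IsSelfAdjoint.of_nonneg (ha0 (e q))).star_eq]
      conv_lhs => rw [e2, ← (hy q' j').2, hfe]
      simp only [mul_assoc]
    rw [e1]
    refine norm_mul₃_le.trans ?_
    rw [norm_star]
    have h1 : ‖star (hf q) * (a (e q) * a (e q')) * hf q'‖ ≤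
        8 / γa * (ζ * γa ^ 2 / 256) * (8 / γa) := by
      refine norm_mul₃_le.trans (mul_le_mul (mul_le_mul ((norm_star _).le.trans (hfn q))
        (hao _ _ (e.injective.ne hne)) (norm_nonneg _) (by positivity)) (hfn q') (norm_nonneg _)
        (by positivity))
    refine (mul_le_mul (mul_le_mul (hy q j).1 h1 (norm_nonneg _) zero_le_two) (hy q' j').1
      (norm_nonneg _) (by positivity)).trans (le_of_eq ?_)
    field_simp; ring
  have hyx : ∀ q j, y q j ∈ rightCl x := fun q j => by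
    rw [← (hy q j).2, hfe]
    exact mul_mem_rightCl (mul_mem_rightCl (hax (e q)).mem_rightCl _) _
  obtain ⟨T, hTmem, hTn, hTT, hTfull⟩ := exists_bilinear hRn hRL (fun i => y (.inl i))
    (fun l => y (.inr l)) (norm_cfcₙ_ramp_le' _ _ _) hζ0.le hζN hζ64 (fun i j => (hy _ j).1)
    (fun l k => (hy _ k).1) (fun i => hym _) (fun l => hym _)
    (fun i i' j j' h => horth _ _ _ _ (by simpa using h))
    (fun l l' k k' h => horth _ _ _ _ (by simpa using h)) (fun l k i j => horth _ _ _ _ (by simp))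
  have hTx : T ∈ rightCl x ∧ star T ∈ rightCl x := by
    clear hTn hTT hTfull
    induction hTmem using Submodule.span_induction with
    | mem v hv =>
      obtain ⟨q, rfl⟩ := hv
      refine ⟨mul_mem_rightCl (hyx _ _) _, ?_⟩
      rw [star_mul, star_star]
      exact mul_mem_rightCl (hyx _ _) _
    | zero => simp
    | add u v _ _ hu hv => exact ⟨add_mem hu.1 hv.1, by rw [star_add]; exact add_mem hu.2 hv.2⟩
    | smul c u _ hu =>
      exact ⟨Submodule.smul_mem _ c hu.1, by rw [star_smul]; exact Submodule.smul_mem _ _ hu.2⟩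
  refine ⟨(1 / K) • T, ?_, ?_, ?_, ?_, fun J hJ hq => ?_⟩
  · rw [norm_smul, Real.norm_of_nonneg (by positivity), div_mul_eq_mul_div, one_mul,
      div_le_one hK0]
    exact hTn
  · rw [← Complex.coe_smul]; exact Submodule.smul_mem _ _ hTx.1
  · rw [star_smul, star_trivial, ← Complex.coe_smul]; exact Submodule.smul_mem _ _ hTx.2
  · rw [smul_mul_smul_comm, norm_smul, Real.norm_of_nonneg (by positivity)]
    calc 1 / K * (1 / K) * ‖T * T‖ ≤ 1 / K * (1 / K) * (4 * N ^ 2 * ζ) :=
          mul_le_mul_of_nonneg_left hTT (by positivity)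
      _ = ζ / 4 := by rw [hK]; field_simp
      _ ≤ η := by linarith
  · have h1 : qn J T ≤ K * ((R : ℝ) ^ 2 / (8 * K ^ 2)) := by
      have h2 := qn_smul_le (J := J) (r := K) ((1 / K) • T)
      rw [smul_smul, mul_one_div_cancel hK0.ne', one_smul, abs_of_pos hK0] at h2
      exact h2.trans (mul_le_mul_of_nonneg_left hq hK0.le)
    have h2 : K * qn J T ≤ (R : ℝ) ^ 2 / 8 := by
      refine (mul_le_mul_of_nonneg_left h1 hK0.le).trans (le_of_eq ?_)
      field_simp
    have h3 := hTfull J hJ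
    rw [← hmdef] at h3
    have h4 : qn J (m * m) ≤ 1 / 2 := by
      refine le_of_mul_le_mul_left ?_ (show (0 : ℝ) < (R : ℝ) ^ 2 by positivity)
      nlinarith [sq_nonneg (R : ℝ)]
    have h5 := qn_star_mul_self hJ m
    rw [(IsSelfAdjoint.of_nonneg hm0).star_eq] at h5
    exact cut_mem_of_ramp hJ hxx (a := ε / 2) (by linarith) (by linarith)
      (by rw [← hmdef]; nlinarith [qn_nonneg (J := J) m])

/-- `L` almost orthogonal columns with a common full square, in the right ideal of `x`. -/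
def HasCopies (C : Type*) [NonUnitalCStarAlgebra C] [PartialOrder C] (L : ℕ) : Prop :=
  ∃ γ : ℝ, 0 < γ ∧ ∀ {x : C}, 0 ≤ x → ∀ {ε : ℝ}, 0 < ε → ∀ η : ℝ, 0 < η →
    ∃ (G : C) (s : Fin L → C), 0 ≤ G ∧ (∀ q, ‖s q‖ ≤ 1 ∧ s q ∈ rightCl x) ∧
      (∀ q q', ‖star (s q) * s q' - if q = q' then G else 0‖ ≤ η) ∧
      ∀ J : Submodule ℂ C, IsStarIdeal J → qn J G ≤ γ → cut ε (x * x) ∈ J

theorem hasCopies_one : HasCopies C 1 := by
  refine ⟨1 / 4, by norm_num, fun {x} hx {ε} hε η hη => ?_⟩
  have hxx : 0 ≤ x * x := (IsSelfAdjoint.of_nonneg hx).mul_self_nonneg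
  set s := cfcₙ (ramp (ε / 2) ε) (x * x) with hs
  obtain ⟨h, hh, -⟩ := exists_ramp_factor hxx (show 0 < ε / 2 by linarith)
    (show ε / 2 < ε by linarith)
  refine ⟨star s * s, fun _ => s, star_mul_self_nonneg _, fun _ => ⟨norm_cfcₙ_ramp_le' _ _ _, ?_⟩,
    fun q q' => by rw [if_pos (Subsingleton.elim q q'), sub_self, norm_zero]; exact hη.le,
    fun J hJ hq => ?_⟩
  · rw [hs, hh, mul_assoc]; exact mul_mem_rightCl_self _ _
  · rw [qn_star_mul_self hJ] at hq
    exact cut_mem_of_ramp hJ hxx (a := ε / 2) (by linarith) (by linarith)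
      (by rw [← hs]; nlinarith [qn_nonneg (J := J) s])

set_option maxHeartbeats 1000000 in
/-- Doubling. -/
theorem HasCopies.double {n : ℕ} (hn : 1 ≤ n) (hC : WeaklyPurelyInfiniteWith C n)
    (hP : OrthPairs C) {L : ℕ} (hL : HasCopies C L) : HasCopies C (L * 2) := by
  obtain ⟨γ1, hγ1, hcop⟩ := hL
  obtain ⟨γ0, hγ0, hsq⟩ := exists_full_sqzero hn hC hP
  refine ⟨γ1, hγ1, fun {x} hx {ε} hε η hη => ?_⟩
  set θ := γ0 ^ 2 with hθ
  have hθ0 : 0 < θ := by positivity
  obtain ⟨t, ht1, htx, htx', htt, htfull⟩ :=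
    hsq hx hε (η / (4 / θ * (4 / θ + 1))) (by positivity)
  set u := star t * t with hu
  have hu0 : 0 ≤ u := star_mul_self_nonneg _
  have h42 : θ / 4 < θ / 2 := by linarith
  set f := cfcₙ (ramp (θ / 4) (θ / 2)) u with hf
  set g := cfcₙ (ramp (θ / 2) θ) u with hg
  have hg0 : 0 ≤ g := cfcₙ_ramp_nonneg _ _ _
  have hfg : f * g = g := ramp_mul_ramp _ (by linarith) h42 (by linarith)
  set φ : ℝ → ℝ := fun r => √(ramp (θ / 4) (θ / 2) r / max r (θ / 4)) with hφ
  have hmx : ∀ r : ℝ, max r (θ / 4) ≠ 0 := fun r => (lt_max_of_lt_right (by linarith)).ne'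
  have hφc : Continuous φ := ((continuous_ramp _ _).div (by fun_prop) hmx).sqrt
  have hφ0 : φ 0 = 0 := by simp [hφ, ramp_zero h42 (by linarith)]
  set k := cfcₙ φ u with hk
  have hks : star k = k := (cfcₙ_predicate φ u : IsSelfAdjoint k).star_eq
  have hkuk : k * u * k = f := by
    rw [hk, cfcₙ_conj hu0 hφc hφ0]
    refine cfcₙ_congr fun r _ => ?_
    simp only [hφ]
    have h0 : 0 ≤ ramp (θ / 4) (θ / 2) r / max r (θ / 4) := div_nonneg (ramp_mem _ _ r).1
      ((by linarith : (0 : ℝ) ≤ θ / 4).trans (le_max_right _ _))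
    rw [mul_comm (√_) r, mul_assoc, Real.mul_self_sqrt h0]
    rcases le_total r (θ / 4) with h | h
    · simp [ramp_of_le h42 h]
    · rw [max_eq_left h, mul_div_cancel₀ _ (by linarith : (r : ℝ) ≠ 0)]
  have hkn : ‖k‖ ≤ 4 / θ + 1 := by
    refine norm_cfcₙ_le fun r _ => ?_
    have h0 : 0 ≤ ramp (θ / 4) (θ / 2) r / max r (θ / 4) := div_nonneg (ramp_mem _ _ r).1
      ((by linarith : (0 : ℝ) ≤ θ / 4).trans (le_max_right _ _))
    have h1 : ramp (θ / 4) (θ / 2) r / max r (θ / 4) ≤ 4 / θ := by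
      rw [show (4 : ℝ) / θ = 1 / (θ / 4) by rw [one_div_div]]
      exact div_le_div₀ zero_le_one (ramp_mem _ _ r).2 (by linarith) (le_max_right _ _)
    rw [Real.norm_of_nonneg (Real.sqrt_nonneg _)]
    refine Real.sqrt_le_iff.2 ⟨by positivity, h1.trans ?_⟩
    nlinarith [div_pos (show (0 : ℝ) < 4 by norm_num) hθ0]
  obtain ⟨h, hfh, hhn⟩ := exists_ramp_factor hu0 (show 0 < θ / 4 by linarith) h42
  rw [← hf] at hfh
  rw [one_div_div] at hhn
  obtain ⟨h', hgh, -⟩ := exists_ramp_factor hu0 (show 0 < θ / 2 by linarith)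
    (show θ / 2 < θ by linarith)
  have hgx : g ∈ rightCl x := by
    rw [hg, hgh, hu]; exact mul_mem_rightCl (mul_mem_rightCl htx' _) _
  obtain ⟨G, s, hG0, hs, hgram, hfull⟩ :=
    hcop hg0 (show (0 : ℝ) < 1 / 16 by norm_num) η hη
  have hfs : ∀ q, f * s q = s q := fun q => rightCl_fix hfg (hs q).2
  have hfstar : star f = f := (IsSelfAdjoint.of_nonneg (cfcₙ_ramp_nonneg _ _ _)).star_eq
  have hcross : ∀ q q', ‖star (s q) * (t * k * s q')‖ ≤ η := fun q q' => by
    have e : star (s q) * (t * k * s q') = star (s q) * (star h * (star t * (t * t)) * k) * s q' := by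
      have hh : f = star h * (star t * t) := by
        rw [← hu, ← hfstar, hfh, star_mul, (IsSelfAdjoint.of_nonneg hu0).star_eq]
      conv_lhs => arg 1; rw [← hfs q, star_mul, hfstar, hh]
      simp only [mul_assoc]
    rw [e]
    refine norm_mul₃_le.trans ?_
    rw [norm_star]
    have h1 : ‖star h * (star t * (t * t)) * k‖ ≤
        4 / θ * (1 * (η / (4 / θ * (4 / θ + 1)))) * (4 / θ + 1) :=
      norm_mul₃_le.trans (mul_le_mul (mul_le_mul ((norm_star _).le.trans hhn)
        ((norm_mul_le _ _).trans (mul_le_mul ((norm_star _).le.trans ht1) htt (norm_nonneg _)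
          zero_le_one)) (norm_nonneg _) (by positivity)) hkn (norm_nonneg _) (by positivity))
    refine (mul_le_mul (mul_le_mul (hs q).1 h1 (norm_nonneg _) zero_le_one) (hs q').1
      (norm_nonneg _) (by positivity)).trans (le_of_eq ?_)
    field_simp
  set S : Fin L × Fin 2 → C := fun p => if p.2 = 0 then s p.1 else t * k * s p.1 with hS
  have hin : ∀ q q', star (t * k * s q) * (t * k * s q') = star (s q) * s q' := fun q q' => by
    calc star (t * k * s q) * (t * k * s q') = star (s q) * ((k * u * k) * s q') := by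
          rw [hu]; simp only [star_mul, hks, mul_assoc]
      _ = _ := by rw [hkuk, hfs]
  refine ⟨G, fun q => S (finProdFinEquiv.symm q), hG0, fun q => ?_, fun q q' => ?_,
    fun J hJ hq => ?_⟩
  · obtain ⟨⟨p, b⟩, rfl⟩ := finProdFinEquiv.surjective q
    simp only [Equiv.symm_apply_apply, hS]
    split_ifs
    · exact ⟨(hs p).1, rightCl_trans hgx (hs p).2⟩
    · refine ⟨norm_le_one_of_sq ?_, mul_mem_rightCl (mul_mem_rightCl htx _) _⟩
      rw [hin, CStarRing.norm_star_mul_self]
      exact mul_le_one₀ (hs p).1 (norm_nonneg _) (hs p).1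
  · obtain ⟨⟨p, b⟩, rfl⟩ := finProdFinEquiv.surjective q
    obtain ⟨⟨p', b'⟩, rfl⟩ := finProdFinEquiv.surjective q'
    simp only [Equiv.symm_apply_apply, hS, finProdFinEquiv.injective.eq_iff, Prod.mk.injEq]
    have hg' := hgram p p'
    fin_cases b <;> fin_cases b' <;>
      simp only [Fin.zero_eta, Fin.mk_one, Fin.isValue, if_true, one_ne_zero, zero_ne_one,
        if_false, and_false, and_true, sub_zero]
    · exact hg'
    · exact hcross p p'
    · rw [← norm_star, star_mul, star_star]; exact hcross p' p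
    · rw [hin]; exact hg'
  · have h1 := hfull J hJ hq
    have hgg : qn J (g * g) ≤ 1 / 16 := (qn_le_norm_sub h1).trans
      (norm_sub_cut_le (by norm_num) (IsSelfAdjoint.of_nonneg hg0).mul_self_nonneg)
    have h2 := qn_mul_star_self hJ g
    rw [(IsSelfAdjoint.of_nonneg hg0).star_eq] at h2
    have h3 := cut_mem_of_ramp hJ hu0 (show 0 ≤ θ / 2 by linarith) (show θ / 2 < θ by linarith)
      (by rw [← hg]; nlinarith [qn_nonneg (J := J) g])
    have h4 : qn J t ^ 2 ≤ θ := by
      rw [← qn_star_mul_self hJ]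
      exact (qn_le_norm_sub h3).trans (norm_sub_cut_le hθ0.le hu0)
    exact htfull J hJ (le_of_pow_le_pow_left₀ two_ne_zero hγ0.le h4)

theorem hasCopies_of_orthPairs {n : ℕ} (hn : 1 ≤ n) (hC : WeaklyPurelyInfiniteWith C n)
    (hP : OrthPairs C) (L : ℕ) : HasCopies C L := by
  have key : ∀ k, HasCopies C (2 ^ k) := fun k => by
    induction k with
    | zero => exact hasCopies_one
    | succ k ih => exact pow_succ 2 k ▸ ih.double hn hC hP
  obtain ⟨γ, hγ, h⟩ := key L
  refine ⟨γ, hγ, fun {x} hx {ε} hε η hη => ?_⟩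
  obtain ⟨G, s, hG, hs, hgram, hfull⟩ := h hx hε η hη
  refine ⟨G, fun q => s (Fin.castLE Nat.lt_two_pow_self.le q), hG, fun q => hs _, fun q q' => ?_,
    hfull⟩
  simpa using hgram (Fin.castLE Nat.lt_two_pow_self.le q) (Fin.castLE Nat.lt_two_pow_self.le q')

set_option maxHeartbeats 1000000 in
/-- Weak pure infiniteness and orthogonal pairs give pure infiniteness. -/
theorem purelyInfinite_of_orthPairs (hW : WeaklyPurelyInfinite C) (hP : OrthPairs C) :
    PurelyInfinite C := by
  obtain ⟨n, hn, hC⟩ := hW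
  obtain ⟨γ, hγ, hcop⟩ := hasCopies_of_orthPairs hn hC hP (2 * n)
  intro h hh ε0 hε0
  set ε := ε0 / 8 with hεdef
  have hε : 0 < ε := by positivity
  set x := CFC.sqrt h with hxdef
  have hx : 0 ≤ x := CFC.sqrt_nonneg h
  have hxs : star x = x := (IsSelfAdjoint.of_nonneg hx).star_eq
  have hxx : x * x = h := CFC.sqrt_mul_sqrt_self h hh
  set ρ := √((‖h‖ + ε) / (γ / 2)) with hρ
  have hρ0 : 0 ≤ ρ := Real.sqrt_nonneg _
  have hn0 : (1 : ℝ) ≤ n := by exact_mod_cast hn
  obtain ⟨G, s, hG0, hs, hgram, hfull⟩ :=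
    hcop hx hε (ε / ((n : ℝ) ^ 2 * (ρ ^ 2 + 1))) (by positivity)
  have hJ : IsStarIdeal (idealGen (cut (γ / 2) G)) :=
    isStarIdeal_idealGen (IsSelfAdjoint.of_nonneg (cut_nonneg _ _)).star_eq
  have hmem := hfull _ hJ ((qn_cut_self hG0 (by linarith)).trans (by linarith))
  rw [hxx] at hmem
  obtain ⟨r, hr, hrn⟩ :=
    hC.exists_bounded hn hG0 (cut_nonneg ε h) (show 0 < γ / 2 by linarith) hmem hε
  have hrρ : ∀ j, ‖r j‖ ≤ ρ := fun j => Real.le_sqrt_of_sq_le ((hrn j).trans (by
    gcongr; exact norm_cut_le hε.le hh))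
  set S : Fin 2 × Fin n → C := fun p => s (finProdFinEquiv p) with hS
  set A : Fin 2 → C := fun i => ∑ j, S (i, j) * r j with hA
  have hAA : ∀ i i', ‖star (A i) * A i' - if i = i' then h else 0‖ ≤ 3 * ε := by
    intro i i'
    set E : Fin n → Fin n → C := fun j j' => star (S (i, j)) * S (i', j') -
      if (i, j) = (i', j') then G else 0 with hE
    have e : star (A i) * A i' - (if i = i' then ∑ j, star (r j) * G * r j else 0) =
        ∑ j, ∑ j', star (r j) * E j j' * r j' := by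
      simp only [hA, hE, star_sum, star_mul, Finset.sum_mul, Finset.mul_sum, mul_sub, sub_mul,
        Finset.sum_sub_distrib, mul_assoc]
      congr 1
      · exact Finset.sum_comm
      · split_ifs with h
        · subst h; simp
        · simp [h]
    have hb : ‖∑ j, ∑ j', star (r j) * E j j' * r j'‖ ≤
        (n : ℝ) * ((n : ℝ) * (ρ * (ε / ((n : ℝ) ^ 2 * (ρ ^ 2 + 1))) * ρ)) := by
      refine (norm_sum_le_card _ fun j => norm_sum_le_card _ fun j' => ?_).trans (le_of_eq
        (by rw [Fintype.card_fin]))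
      refine norm_mul₃_le.trans (mul_le_mul (mul_le_mul ((norm_star _).le.trans (hrρ j)) ?_
        (norm_nonneg _) hρ0) (hrρ j') (norm_nonneg _) (by positivity))
      have := hgram (finProdFinEquiv (i, j)) (finProdFinEquiv (i', j'))
      simpa only [hE, hS, finProdFinEquiv.injective.eq_iff] using this
    have hb2 : (n : ℝ) * ((n : ℝ) * (ρ * (ε / ((n : ℝ) ^ 2 * (ρ ^ 2 + 1))) * ρ)) ≤ ε := by
      rw [show (n : ℝ) * ((n : ℝ) * (ρ * (ε / ((n : ℝ) ^ 2 * (ρ ^ 2 + 1))) * ρ)) =
        ε * (ρ ^ 2 / (ρ ^ 2 + 1)) by field_simp]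
      exact mul_le_of_le_one_right hε.le (by rw [div_le_one (by positivity)]; linarith)
    rw [← e] at hb
    by_cases hii : i = i'
    · rw [if_pos hii] at hb ⊢
      have h2 := norm_sub_cut_le hε.le hh
      rw [norm_sub_rev] at h2
      linarith [norm_sub_le_norm_sub_add_norm_sub (star (A i) * A i')
        (∑ j, star (r j) * G * r j) h, norm_sub_le_norm_sub_add_norm_sub
        (∑ j, star (r j) * G * r j) (cut ε h) h]
    · rw [if_neg hii] at hb ⊢; linarith
  set M := √(‖h‖ + 3 * ε) with hM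
  have hM0 : 0 ≤ M := Real.sqrt_nonneg _
  have hAM : ∀ i, ‖A i‖ ≤ M := fun i => by
    refine Real.le_sqrt_of_sq_le ?_
    have := hAA i i
    rw [if_pos rfl] at this
    have h1 := norm_le_norm_add_norm_sub' (star (A i) * A i) h
    rw [CStarRing.norm_star_mul_self] at h1
    linarith [sq ‖A i‖]
  set d := min 1 (ε / (2 * M + 1)) with hd
  have hd0 : 0 < d := lt_min one_pos (by positivity)
  have habs : ∀ i, ∃ w : C, ‖x * w - A i‖ < d := fun i => exists_of_mem_rightCl
    (sum_mem fun j _ => mul_mem_rightCl (hs _).2 _) hd0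
  choose a hd' using habs
  have hfin : ∀ i i', ‖star (a i) * h * a i' - if i = i' then h else 0‖ < ε0 := by
    intro i i'
    have e : star (a i) * h * a i' = star (x * a i) * (x * a i') := by
      rw [← hxx, star_mul, hxs]; simp only [mul_assoc]
    rw [e]
    have h1 : ‖star (x * a i) * (x * a i') - star (A i) * A i'‖ ≤ ε := by
      rw [show star (x * a i) * (x * a i') - star (A i) * A i' =
        star (x * a i - A i) * (x * a i') + star (A i) * (x * a i' - A i') by
          simp only [star_sub, sub_mul, mul_sub]; abel]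
      have hu1 : ‖x * a i'‖ ≤ M + 1 := by
        linarith [norm_le_norm_add_norm_sub' (x * a i') (A i'), hd' i', hAM i',
          min_le_left 1 (ε / (2 * M + 1))]
      refine (norm_add_le _ _).trans ((add_le_add
        ((norm_mul_le _ _).trans (mul_le_mul ((norm_star _).le.trans (hd' i).le) hu1 (norm_nonneg _)
          hd0.le))
        ((norm_mul_le _ _).trans (mul_le_mul ((norm_star _).le.trans (hAM i)) (hd' i').le
          (norm_nonneg _) hM0))).trans ?_)
      calc d * (M + 1) + M * d = d * (2 * M + 1) := by ring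
        _ ≤ ε := by rw [← le_div_iff₀ (by positivity)]; exact min_le_right _ _
    have := norm_sub_le_norm_sub_add_norm_sub (star (x * a i) * (x * a i')) (star (A i) * A i')
      (if i = i' then h else 0)
    linarith [hAA i i', hεdef]
  exact ⟨a 0, a 1, by simpa using hfin 0 0, by simpa using hfin 1 1, by simpa using hfin 0 1⟩

theorem weaklyPurelyInfinite_of_purelyInfinite (hC : PurelyInfinite C) :
    WeaklyPurelyInfinite C := by
  refine ⟨1, le_rfl, fun h hh ε hε => ?_⟩
  obtain ⟨a, b, ha, hb, hab⟩ := hC h hh ε hε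
  refine ⟨fun _ => ![a, b], fun k k' => ?_⟩
  fin_cases k <;> fin_cases k' <;> simp
  · exact ha
  · exact hab
  · rw [← norm_star, star_mul, star_mul, star_star, (IsSelfAdjoint.of_nonneg hh).star_eq,
      ← mul_assoc]
    exact hab
  · exact hb

/-- In a purely infinite algebra the pairs exist. -/
theorem orthPairs_of_purelyInfinite (hC : PurelyInfinite C) : OrthPairs C := by
  refine ⟨1 / 32, by norm_num, fun {x} hx {ε} hε η hη => ?_⟩
  have hxx : 0 ≤ x * x := (IsSelfAdjoint.of_nonneg hx).mul_self_nonneg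
  set q := cfcₙ (ramp (ε / 8) (ε / 4)) (x * x) with hq
  set p := cfcₙ (ramp (ε / 4) (ε / 2)) (x * x) with hp
  have hqp : q * p = p := ramp_mul_ramp _ (by linarith) (by linarith) (by linarith)
  set μ := min (1 / 16) (η / 4) with hμ
  have hμ0 : 0 < μ := lt_min (by norm_num) (by positivity)
  obtain ⟨G, v1, v2, t, h11, h22, h12, hn1, hn2, hq1, hq2, -, -, hfull⟩ :=
    exists_top_copies hC (cfcₙ_ramp_nonneg _ _ _) hqp (show (0 : ℝ) < 1 / 2 by norm_num) hμ0
      (min_le_left _ _)
  obtain ⟨h, hh, -⟩ := exists_ramp_factor hxx (show 0 < ε / 8 by linarith)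
    (show ε / 8 < ε / 4 by linarith)
  rw [← hq] at hh
  have hqs : star q = q := (IsSelfAdjoint.of_nonneg (cfcₙ_ramp_nonneg _ _ _)).star_eq
  have her : ∀ v : C, q * v = v → InHer x ((1 / 4 : ℝ) • (v * star v)) := fun v hv δ hδ => by
    refine ⟨(1 / 4 : ℝ) • (x * h * (v * star v) * star h * x), ?_⟩
    have e : v * star v = x * (x * h * (v * star v) * star h * x) * x := by
      have hv' : star v = star v * q := by
        conv_lhs => rw [← hv, star_mul, hqs]
      conv_lhs => rw [hv', ← hv, ← mul_assoc (q * v)]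
      have hx' : q = star h * (x * x) := by
        rw [← hqs, hh, star_mul, (IsSelfAdjoint.of_nonneg hxx).star_eq]
      conv_lhs => arg 2; rw [hx']
      conv_lhs => arg 1; arg 1; arg 1; rw [hh]
      simp only [hv, mul_assoc]
    rw [mul_smul_comm, smul_mul_assoc, ← e, sub_self, norm_zero]
    exact hδ
  have hn4 : ∀ v : C, ‖v‖ ≤ 2 → ‖(1 / 4 : ℝ) • (v * star v)‖ ≤ 1 := fun v hv => by
    rw [norm_smul, CStarRing.norm_self_mul_star, Real.norm_of_nonneg (by norm_num)]
    nlinarith [norm_nonneg v]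
  have hful : ∀ v : C, ‖star v * v - G‖ < μ → ∀ J : Submodule ℂ C, IsStarIdeal J →
      qn J ((1 / 4 : ℝ) • (v * star v)) ≤ 1 / 32 → cut ε (x * x) ∈ J := fun v hv J hJ hqa => by
    have h1 := qn_smul_le (J := J) (r := 4) ((1 / 4 : ℝ) • (v * star v))
    rw [smul_smul, show (4 : ℝ) * (1 / 4) = 1 by norm_num, one_smul, qn_mul_star_self hJ,
      ← qn_star_mul_self hJ, abs_of_pos (by norm_num : (0 : ℝ) < 4)] at h1
    have h2 := qn_le_add_norm (J := J) G (star v * v)
    rw [norm_sub_rev] at h2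
    have hμ16 : μ ≤ 1 / 16 := min_le_left _ _
    have h3 := hfull J hJ (by linarith)
    have h4 : qn J p ≤ 1 / 2 := (qn_le_norm_sub h3).trans
      (norm_sub_cut_le (by norm_num) (cfcₙ_ramp_nonneg _ _ _))
    have h5 := cut_mem_of_ramp hJ hxx (show 0 ≤ ε / 4 by linarith) (show ε / 4 < ε / 2 by linarith)
      (by rw [← hp]; linarith)
    exact cut_mem_of_qn_lt hJ hxx (lt_of_le_of_lt ((qn_le_norm_sub h5).trans
      (norm_sub_cut_le (show 0 ≤ ε / 2 by linarith) hxx)) (by linarith))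
  refine ⟨(1 / 4 : ℝ) • (v1 * star v1), (1 / 4 : ℝ) • (v2 * star v2),
    smul_nonneg (by norm_num) (mul_star_self_nonneg _),
    smul_nonneg (by norm_num) (mul_star_self_nonneg _), hn4 _ hn1, hn4 _ hn2, her _ hq1,
    her _ hq2, ?_, fun J hJ => ⟨hful _ h11 J hJ, hful _ h22 J hJ⟩⟩
  rw [smul_mul_smul_comm, norm_smul, show v1 * star v1 * (v2 * star v2) =
    v1 * (star v1 * v2) * star v2 by simp only [mul_assoc]]
  calc ‖(1 / 4 : ℝ) * (1 / 4)‖ * ‖v1 * (star v1 * v2) * star v2‖ ≤ (1 / 16) * (2 * μ * 2) := by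
        refine mul_le_mul (le_of_eq (by norm_num)) (norm_mul₃_le.trans ?_) (norm_nonneg _)
          (by norm_num)
        rw [norm_star]
        exact mul_le_mul (mul_le_mul hn1 h12.le (norm_nonneg _) zero_le_two) hn2 (norm_nonneg _)
          (by positivity)
    _ ≤ η := by linarith [min_le_right (1 / 16) (η / 4)]

/-- Without projections in quotients, two bands of any element are full. -/
theorem orthPairs_of_noQuotientProjection (hN : NoQuotientProjection C) : OrthPairs C := by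
  refine ⟨1 / 4, by norm_num, fun {x} hx {ε} hε η hη => ?_⟩
  have hxx : 0 ≤ x * x := (IsSelfAdjoint.of_nonneg hx).mul_self_nonneg
  set band : ℝ → ℝ → ℝ := fun l r =>
    ramp (l / 2) l r * (1 - ramp (3 * l / 2) (7 * l / 4) r) with hband
  have hbc : ∀ l, Continuous (band l) := fun l =>
    (continuous_ramp _ _).mul (continuous_const.sub (continuous_ramp _ _))
  have hb01 : ∀ l r, 0 ≤ band l r ∧ band l r ≤ 1 := fun l r => by
    obtain ⟨h0, h1⟩ := ramp_mem (l / 2) l r
    obtain ⟨h2, h3⟩ := ramp_mem (3 * l / 2) (7 * l / 4) r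
    exact ⟨mul_nonneg h0 (by linarith), mul_le_one₀ h1 (by linarith) (by linarith)⟩
  have hb0 : ∀ l : ℝ, 0 < l → band l 0 = 0 := fun l hl => by
    simp [hband, ramp_zero (show l / 2 < l by linarith) (by linarith)]
  have hfull : ∀ l : ℝ, 0 < l → 3 * l / 2 < ε → ∀ J : Submodule ℂ C, IsStarIdeal J →
      qn J (cfcₙ (band l) (x * x)) ≤ 1 / 4 → cut ε (x * x) ∈ J := fun l hl hlε J hJ hq => by
    set p := cfcₙ (ramp l (3 * l / 2)) (x * x) with hp
    have hl2 : l < 3 * l / 2 := by linarith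
    have hmem : p ∈ J := by
      refine hN J hJ p ?_ (by
        rw [(cfcₙ_predicate (ramp l (3 * l / 2)) (x * x) : IsSelfAdjoint p).star_eq, sub_self]
        exact J.zero_mem)
      have hrc : Continuous (ramp l (3 * l / 2)) := continuous_ramp _ _
      have hr0 : ramp l (3 * l / 2) 0 = 0 := ramp_zero hl2 hl.le
      have e : p * p - p = cfcₙ (fun r => ramp l (3 * l / 2) r * ramp l (3 * l / 2) r -
          ramp l (3 * l / 2) r) (x * x) := by
        rw [hp, cfcₙ_sub (fun r => ramp l (3 * l / 2) r * ramp l (3 * l / 2) r) _ _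
          (hrc.mul hrc).continuousOn (by simp [hr0]) hrc.continuousOn hr0,
          cfcₙ_mul _ _ _ hrc.continuousOn hr0 hrc.continuousOn hr0]
      rw [e]
      refine cfc_mem_of_qn_lt hJ (IsSelfAdjoint.of_nonneg hxx) (hbc l) (hb0 l hl)
        (show (0 : ℝ) < 3 / 4 by norm_num) (lt_of_le_of_lt hq (by norm_num))
        ((hrc.mul hrc).sub hrc) (by simp [hr0]) fun r _ hr => ?_
      have h1 : l ≤ r := le_of_not_ge fun h => hr (by simp [ramp_of_le hl2 h])
      have h2 : r ≤ 3 * l / 2 := le_of_not_ge fun h => hr (by simp [ramp_of_ge hl2 h])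
      simp only [hband]
      rw [ramp_of_ge (by linarith) h1, ramp_of_le (by linarith) h2]
      norm_num
    have h1 := cut_mem_of_ramp hJ hxx hl.le hl2 (by
      rw [← hp, (qn_eq_zero hJ).2 hmem]; norm_num)
    exact cut_mem_of_qn_lt hJ hxx (lt_of_le_of_lt ((qn_le_norm_sub h1).trans
      (norm_sub_cut_le (show 0 ≤ 3 * l / 2 by linarith) hxx)) (by linarith))
  have her : ∀ l : ℝ, 0 < l → InHer x (cfcₙ (band l) (x * x)) := fun l hl δ hδ => by
    set w : ℝ → ℝ := fun r => band l r / max r (l / 2) ^ 2 with hw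
    have hmx : ∀ r : ℝ, max r (l / 2) ^ 2 ≠ 0 := fun r =>
      pow_ne_zero 2 (lt_max_of_lt_right (by linarith)).ne'
    have hwc : Continuous w := (hbc l).div (by fun_prop) hmx
    have hw0 : w 0 = 0 := by simp [hw, hb0 l hl]
    refine ⟨x * cfcₙ w (x * x) * x, ?_⟩
    have e : x * x * cfcₙ w (x * x) * (x * x) = cfcₙ (band l) (x * x) := by
      have e1 := cfcₙ_mul (fun r : ℝ => r) w (x * x) continuous_id.continuousOn rfl hwc.continuousOn hw0
      have e2 := cfcₙ_mul (fun r : ℝ => r * w r) (fun r : ℝ => r) (x * x)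
        (continuous_id.mul hwc).continuousOn (by simp) continuous_id.continuousOn rfl
      rw [cfcₙ_id' ℝ (x * x)] at e1 e2
      rw [← e1, ← e2]
      refine cfcₙ_congr fun r _ => ?_
      simp only [hw]
      rcases le_total r (l / 2) with h | h
      · simp [hband, ramp_of_le (show l / 2 < l by linarith) h]
      · rw [max_eq_left h]
        have : (r : ℝ) ≠ 0 := by linarith
        field_simp
    rw [show x * (x * cfcₙ w (x * x) * x) * x = x * x * cfcₙ w (x * x) * (x * x) by
      simp only [mul_assoc], e, sub_self, norm_zero]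
    exact hδ
  have hn : ∀ l, ‖cfcₙ (band l) (x * x)‖ ≤ 1 := fun l => norm_cfcₙ_le fun r _ => by
    rw [Real.norm_of_nonneg (hb01 l r).1]; exact (hb01 l r).2
  refine ⟨cfcₙ (band (ε / 8)) (x * x), cfcₙ (band (ε / 2)) (x * x),
    cfcₙ_nonneg fun r _ => (hb01 _ r).1, cfcₙ_nonneg fun r _ => (hb01 _ r).1, hn _, hn _,
    her _ (by linarith), her _ (by linarith), ?_, fun J hJ =>
      ⟨hfull _ (by linarith) (by linarith) J hJ, hfull _ (by linarith) (by linarith) J hJ⟩⟩
  rw [← cfcₙ_mul (band (ε / 8)) (band (ε / 2)) (x * x) (hbc _).continuousOn (hb0 _ (by linarith))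
    (hbc _).continuousOn (hb0 _ (by linarith))]
  refine norm_cfcₙ_le fun r _ => ?_
  rcases le_total r (ε / 4) with h | h
  · simp [hband, ramp_of_le (show ε / 2 / 2 < ε / 2 by linarith) (by linarith : r ≤ ε / 2 / 2)]
    linarith
  · simp [hband, ramp_of_ge (show 3 * (ε / 8) / 2 < 7 * (ε / 8) / 4 by linarith)
      (by linarith : 7 * (ε / 8) / 4 ≤ r)]
    linarith

end Vale.Agent.P133
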